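import Mathlib

/-!
A finite flow along the edges of a free subgroup vanishes: free derivatives.
-/

namespace Vale.Agent.HNNAlg.Pencil

open MonoidAlgebra

universe u v

variable {K : Type u} [Field K] {S : Type v}

/-- The affine action whose translation part is the free derivative by `s₀`. -/
noncomputable def affine [DecidableEq S] (s₀ : S) :
    FreeGroup S →* Equiv.Perm (MonoidAlgebra K (FreeGroup S)) :=
  FreeGroup.lift fun s =>
    { toFun := fun z => (if s = s₀ then 1 else 0) + single (FreeGroup.of s) 1 * z
      invFun := fun z => single (FreeGroup.of s)⁻¹ 1 * (z - if s = s₀ then 1 else 0)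
      left_inv := fun z => by
        simp [← mul_assoc, MonoidAlgebra.single_mul_single, ← MonoidAlgebra.one_def]
      right_inv := fun z => by
        simp [← mul_assoc, MonoidAlgebra.single_mul_single, ← MonoidAlgebra.one_def] }

/-- The free derivative of a group element. -/
noncomputable def deriv [DecidableEq S] (s₀ : S) (w : FreeGroup S) :
    MonoidAlgebra K (FreeGroup S) :=
  affine s₀ w 0

theorem affine_apply [DecidableEq S] (s₀ : S) (w : FreeGroup S)
    (z : MonoidAlgebra K (FreeGroup S)) : affine s₀ w z = deriv s₀ w + single w 1 * z := by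
  induction w using FreeGroup.induction_on generalizing z with
  | C1 => simp [deriv, ← MonoidAlgebra.one_def]
  | of s => simp [deriv, affine]
  | inv_of s _ =>
    simp only [deriv, map_inv, affine, FreeGroup.lift_apply_of, Equiv.Perm.inv_def,
      Equiv.coe_fn_symm_mk, mul_sub, mul_zero]
    abel
  | mul a b ha hb =>
    simp only [deriv, map_mul, Equiv.Perm.mul_apply]
    rw [hb z, hb 0, mul_zero, add_zero, ha, ha (deriv s₀ b), mul_add, ← mul_assoc,
      MonoidAlgebra.single_mul_single, one_mul, add_assoc]

theorem deriv_mul_of [DecidableEq S] (s₀ s : S) (w : FreeGroup S) :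
    deriv (K := K) s₀ (w * FreeGroup.of s) = deriv s₀ w + if s = s₀ then single w 1 else 0 := by
  rw [deriv, map_mul, Equiv.Perm.mul_apply, affine_apply]
  congr 1
  simp [affine]

theorem eq_zero_of_sum_mul (T : Finset S) (ψ : S → MonoidAlgebra K (FreeGroup S))
    (h : ∑ s ∈ T, (ψ s * single (FreeGroup.of s) 1 - ψ s) = 0) {s₀ : S} (hs : s₀ ∈ T) :
    ψ s₀ = 0 := by
  classical
  let L : MonoidAlgebra K (FreeGroup S) →ₗ[K] MonoidAlgebra K (FreeGroup S) :=
    (Finsupp.linearCombination K (deriv s₀)).comp (coeffLinearEquiv K).toLinearMap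
  have hL : ∀ w r, L (single w r) = r • deriv s₀ w := fun w r => by simp [L]
  have key : ∀ (s : S) (a : MonoidAlgebra K (FreeGroup S)),
      L (a * single (FreeGroup.of s) 1 - a) = if s = s₀ then a else 0 := by
    intro s a
    induction a using MonoidAlgebra.induction_linear with
    | zero => simp
    | add a b ha hb =>
      rw [add_mul, add_sub_add_comm, map_add, ha, hb]
      split_ifs <;> simp
    | single w r =>
      rw [MonoidAlgebra.single_mul_single, mul_one, map_sub, hL, hL, deriv_mul_of, smul_add,
        add_sub_cancel_left]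
      split_ifs <;> simp
  have := congrArg L h
  rw [map_sum, map_zero] at this
  simpa [key, hs] using this

/-- A finite flow on the cosets of a free subgroup is zero. -/
theorem flow_eq_zero {H : Type*} [Group H] (f : FreeGroup S →* H) (hf : Function.Injective f)
    (T : Finset S) (φ : S → H → K) (hfin : ∀ s ∈ T, (Function.support (φ s)).Finite)
    (h : ∀ g, ∑ s ∈ T, φ s (g * (f (FreeGroup.of s))⁻¹) = ∑ s ∈ T, φ s g)
    {s₀ : S} (hs : s₀ ∈ T) (g₀ : H) : φ s₀ g₀ = 0 := by
  classical
  have hfin' : ∀ s ∈ T, (Function.support fun w => φ s (g₀ * f w)).Finite := fun s hs =>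
    (hfin s hs).preimage ((mul_right_injective g₀).comp hf).injOn
  let ψ : S → MonoidAlgebra K (FreeGroup S) := fun s =>
    if hs : s ∈ T then ofCoeff (Finsupp.ofSupportFinite _ (hfin' s hs)) else 0
  have hψ : ∀ s ∈ T, ∀ w, (ψ s).coeff w = φ s (g₀ * f w) := fun s hs w => by
    simp only [ψ, dif_pos hs]
    rfl
  have h0 : ∑ s ∈ T, (ψ s * single (FreeGroup.of s) 1 - ψ s) = 0 := by
    ext w
    simp only [coeff_sum, coeff_sub, Finsupp.coe_finsetSum, Finset.sum_apply, Finsupp.sub_apply,
      coeff_zero, Finsupp.coe_zero, Pi.zero_apply, Finset.sum_sub_distrib, sub_eq_zero]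
    calc ∑ s ∈ T, (ψ s * single (FreeGroup.of s) 1).coeff w
        = ∑ s ∈ T, φ s (g₀ * f w * (f (FreeGroup.of s))⁻¹) := by
          refine Finset.sum_congr rfl fun s hs => ?_
          rw [coeff_mul_single_apply, hψ s hs, mul_one]
          simp [mul_assoc]
      _ = ∑ s ∈ T, φ s (g₀ * f w) := h _
      _ = _ := Finset.sum_congr rfl fun s hs => (hψ s hs w).symm
  have := congrArg (fun a : MonoidAlgebra K (FreeGroup S) => a.coeff 1) (eq_zero_of_sum_mul T ψ h0 hs)
  simpa [hψ s₀ hs] using this

end Vale.Agent.HNNAlg.Pencil
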