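import Mathlib

/-!
Kernels of matrices over a division ring.
-/

namespace Vale.Agent.HNNAlg.Pencil

open Matrix MulOpposite Module

variable {D : Type*} [DivisionRing D] {m n : Type*} [Fintype m] [Fintype n]

omit [Fintype m] in
theorem op_mulVec (M : Matrix m n D) (v : n → D) (i : m) :
    ((op ∘ v) ᵥ* (M.map op)ᵀ) i = op ((M *ᵥ v) i) := by
  simp [Matrix.vecMul, Matrix.mulVec, dotProduct, Finset.op_sum]

/-- Fewer rows than columns force a kernel. -/
theorem exists_mulVec_eq_zero (M : Matrix m n D) (h : Fintype.card m < Fintype.card n) :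
    ∃ v : n → D, v ≠ 0 ∧ M *ᵥ v = 0 := by
  by_contra hcon
  push Not at hcon
  have hinj : Function.Injective (Matrix.vecMulLinear (M.map op)ᵀ) := by
    rw [← LinearMap.ker_eq_bot, LinearMap.ker_eq_bot']
    intro v hv
    by_contra hv0
    refine hcon (unop ∘ v) (fun h0 => hv0 ?_) ?_
    · funext i
      have := congrFun h0 i
      simpa using this
    · funext i
      have h1 := congrFun hv i
      rw [vecMulLinear_apply, show v = op ∘ (unop ∘ v) from by funext j; simp, op_mulVec] at h1
      simpa using h1
  have := LinearMap.finrank_le_finrank_of_injective hinj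
  rw [finrank_fintype_fun_eq_card, finrank_fintype_fun_eq_card] at this
  omega

/-- If a matrix with no more columns than rows has a kernel, then it has a cokernel. -/
theorem exists_vecMul_eq_zero (M : Matrix m n D) (h : Fintype.card n ≤ Fintype.card m) {v : n → D}
    (hv : M *ᵥ v = 0) (hv0 : v ≠ 0) : ∃ u : m → D, u ≠ 0 ∧ u ᵥ* M = 0 := by
  classical
  by_contra hcon
  push Not at hcon
  have hinj : Function.Injective M.vecMulLinear := by
    rw [← LinearMap.ker_eq_bot, LinearMap.ker_eq_bot']
    intro u hu
    by_contra hu0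
    exact hcon u hu0 hu
  have hle := LinearMap.finrank_le_finrank_of_injective hinj
  rw [finrank_fintype_fun_eq_card, finrank_fintype_fun_eq_card] at hle
  have hsurj := (LinearMap.injective_iff_surjective_of_finrank_eq_finrank
    (by rw [finrank_fintype_fun_eq_card, finrank_fintype_fun_eq_card]; omega)).1 hinj
  refine hv0 (funext fun j => ?_)
  obtain ⟨u, hu⟩ := hsurj (Pi.single j 1)
  have h1 : u ⬝ᵥ (M *ᵥ v) = (u ᵥ* M) ⬝ᵥ v := dotProduct_mulVec u M v
  rw [hv, dotProduct_zero, show u ᵥ* M = Pi.single j 1 from hu, single_dotProduct, one_mul] at h1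
  exact h1.symm

end Vale.Agent.HNNAlg.Pencil
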