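import Vale.Agent.HNNAlg.Series
import Vale.Agent.HNNAlg.Pencil.Linear
import Vale.Agent.HNNAlg.Pencil.Flow

/-!
A linear pencil over a free subgroup is injective in the series division ring exactly when it
satisfies the Hall condition over the scalars.
-/

namespace Vale.Agent.HNNAlg.Pencil

open Matrix Module
open Series (coeff_add coeff_zero coeff_single coeff_sum coeff_single_mul' coeff_mul_single' ext' constHom const_comm finite_pairs)

universe u v

variable {K : Type u} [Field K] {H : Type v} [Group H] [LinearOrder H] [MulLeftStrictMono H]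
  [MulRightStrictMono H] {S : Type v}

/-- A pencil: a matrix of affine forms in the letters. -/
abbrev Pen (K : Type u) [Field K] (S : Type v) (m k : Type) := Matrix m k (Option S →₀ K)

/-- The group element of a letter; the missing letter is `1`. -/
def pt (f : FreeGroup S →* H) : Option S → H := fun i => i.elim 1 fun s => f (FreeGroup.of s)

/-- The value of an affine form. -/
noncomputable def ev (f : FreeGroup S →* H) : (Option S →₀ K) →+ Series K H :=
  Finsupp.liftAddHom fun i =>
    { toFun := fun r => Series.single (pt f i) r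
      map_zero' := ext' fun g => by simp [Series.single, coeff_zero]
      map_add' := fun r r' => ext' fun g => by
        classical
        simp only [coeff_single, coeff_add]
        split_ifs <;> simp }

theorem ev_single (f : FreeGroup S →* H) (i : Option S) (r : K) :
    ev f (Finsupp.single i r) = Series.single (pt f i) r := by
  rw [ev, Finsupp.liftAddHom_apply_single]
  rfl

theorem coeff_ev_mul (f : FreeGroup S →* H) (x : Option S →₀ K) (y : Series K H)
    {I : Finset (Option S)} (hI : x.support ⊆ I) (g : H) :
    (ev f x * y).coeff g = ∑ i ∈ I, x i * y.coeff ((pt f i)⁻¹ * g) := by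
  classical
  rw [ev, Finsupp.liftAddHom_apply, Finsupp.sum_of_support_subset _ hI _ (fun i _ => map_zero _), Finset.sum_mul,
    coeff_sum]
  exact Finset.sum_congr rfl fun i _ => coeff_single_mul' _ _ _ _

theorem coeff_mul_ev (f : FreeGroup S →* H) (x : Option S →₀ K) (y : Series K H)
    {I : Finset (Option S)} (hI : x.support ⊆ I) (g : H) :
    (y * ev f x).coeff g = ∑ i ∈ I, y.coeff (g * (pt f i)⁻¹) * x i := by
  classical
  rw [ev, Finsupp.liftAddHom_apply, Finsupp.sum_of_support_subset _ hI _ (fun i _ => map_zero _), Finset.mul_sum,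
    coeff_sum]
  exact Finset.sum_congr rfl fun i _ => coeff_mul_single' _ _ _ _

theorem ev_smul (f : FreeGroup S →* H) (r : K) (x : Option S →₀ K) :
    ev f (r • x) = constHom r * ev f x := by
  induction x using Finsupp.induction_linear with
  | zero => simp
  | add x y hx hy => rw [smul_add, map_add, map_add, hx, hy, mul_add]
  | single i s =>
    classical
    rw [Finsupp.smul_single, ev_single, ev_single]
    refine ext' fun g => ?_
    show _ = (Series.single 1 r * Series.single (pt f i) s).coeff g
    rw [coeff_single_mul', inv_one, one_mul, coeff_single, coeff_single]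
    split_ifs <;> simp

variable {m k l : Type}

/-- The matrix of a pencil in the series division ring. -/
noncomputable def mat (f : FreeGroup S →* H) (P : Pen K S m k) : Matrix m k (Series K H) :=
  P.map (ev f)

/-- The coefficient matrix of a letter. -/
def coef (P : Pen K S m k) (i : Option S) : Matrix m k K := P.map fun x => x i

variable [Fintype m] [Fintype k] [Fintype l]

/-- The span of the images of a subspace under all coefficient matrices. -/
noncomputable def imgs (P : Pen K S m k) (V : Submodule K (k → K)) : Submodule K (m → K) :=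
  ⨆ i, V.map (coef P i).mulVecLin

/-- The Hall condition. -/
def Hall (P : Pen K S m k) : Prop :=
  ∀ V : Submodule K (k → K), finrank K V ≤ finrank K (imgs P V)

/-- A pencil times a scalar matrix. -/
noncomputable def mulR (P : Pen K S m k) (B : Matrix k l K) : Pen K S m l :=
  Matrix.of fun a b => ∑ c, B c b • P a c

/-- A scalar matrix times a pencil. -/
noncomputable def mulL (L : Matrix l m K) (P : Pen K S m k) : Pen K S l k :=
  Matrix.of fun a b => ∑ c, L a c • P c b

/-- Scalar matrices in the series. -/
noncomputable def cmat (B : Matrix m k K) : Matrix m k (Series K H) := B.map constHom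

omit [Fintype m] [Fintype l] in
theorem mat_mulR (f : FreeGroup S →* H) (P : Pen K S m k) (B : Matrix k l K) :
    mat f (mulR P B) = mat f P * cmat (H := H) B := by
  ext1 a b
  simp only [mat, mulR, cmat, Matrix.map_apply, Matrix.of_apply, Matrix.mul_apply, map_sum, ev_smul]
  exact Finset.sum_congr rfl fun c _ => const_comm _ _

omit [Fintype k] [Fintype l] in
theorem mat_mulL (f : FreeGroup S →* H) (L : Matrix l m K) (P : Pen K S m k) :
    mat f (mulL L P) = cmat (H := H) L * mat f P := by
  ext1 a b
  simp only [mat, mulL, cmat, Matrix.map_apply, Matrix.of_apply, Matrix.mul_apply, map_sum, ev_smul]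

omit [Fintype m] [Fintype l] in
theorem coef_mulR (P : Pen K S m k) (B : Matrix k l K) (i : Option S) :
    coef (mulR P B) i = coef P i * B := by
  ext a b
  simp [coef, mulR, Matrix.mul_apply, Finsupp.finsetSum_apply, mul_comm]

omit [Fintype k] [Fintype l] in
theorem coef_mulL (L : Matrix l m K) (P : Pen K S m k) (i : Option S) :
    coef (mulL L P) i = L * coef P i := by
  ext a b
  simp [coef, mulL, Matrix.mul_apply, Finsupp.finsetSum_apply]

omit [Fintype m] in
theorem cmat_mulVec_eq (B : Matrix m k K) (v : k → Series K H) (a : m) (g : H) :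
    ((cmat B *ᵥ v) a).coeff g = (B *ᵥ fun b => (v b).coeff g) a := by
  simp only [cmat, Matrix.mulVec, dotProduct, Matrix.map_apply, coeff_sum]
  refine Finset.sum_congr rfl fun b _ => ?_
  show (Series.single 1 (B a b) * v b).coeff g = _
  rw [coeff_single_mul', inv_one, one_mul]

/-- A basis of a subspace as the columns of a matrix, with a left inverse. -/
theorem exists_cols (W : Submodule K (k → K)) :
    ∃ (J : Matrix k (Fin (finrank K W)) K) (L : Matrix (Fin (finrank K W)) k K),
      L * J = 1 ∧ LinearMap.range J.mulVecLin = W ∧ ∀ x ∈ W, J *ᵥ (L *ᵥ x) = x := by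
  classical
  set j : (Fin (finrank K W) → K) →ₗ[K] (k → K) :=
    W.subtype ∘ₗ (Module.finBasis K W).equivFun.symm.toLinearMap with hj
  have hjinj : Function.Injective j :=
    W.injective_subtype.comp (Module.finBasis K W).equivFun.symm.injective
  obtain ⟨q, hq⟩ := j.exists_leftInverse_of_injective (LinearMap.ker_eq_bot.2 hjinj)
  have hr : LinearMap.range j = W := by
    rw [hj, LinearMap.range_comp, LinearEquiv.range, Submodule.map_top, Submodule.range_subtype]
  refine ⟨LinearMap.toMatrix' j, LinearMap.toMatrix' q, ?_, ?_, fun x hx => ?_⟩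
  · rw [← LinearMap.toMatrix'_comp, hq, LinearMap.toMatrix'_id]
  · rw [← Matrix.toLin'_apply', Matrix.toLin'_toMatrix', hr]
  · obtain ⟨y, rfl⟩ := hr.ge hx
    rw [LinearMap.toMatrix'_mulVec, LinearMap.toMatrix'_mulVec]
    exact congrArg j (LinearMap.congr_fun hq y)

/-- For every letter the coefficients of a kernel and a cokernel vector are orthogonal. -/
theorem orth (f : FreeGroup S →* H) (hf : Function.Injective f) (P : Pen K S m k)
    {u : m → Series K H} {v : k → Series K H} (hu : u ᵥ* mat f P = 0) (hv : mat f P *ᵥ v = 0)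
    (i : Option S) (g h : H) :
    (fun a => (u a).coeff g) ⬝ᵥ (coef P i *ᵥ fun b => (v b).coeff h) = 0 := by
  classical
  set I : Finset (Option S) := insert none (Finset.univ.biUnion fun a => Finset.univ.biUnion fun b =>
    (P a b).support) with hI
  have hsub : ∀ a b, (P a b).support ⊆ I := fun a b x hx =>
    Finset.mem_insert_of_mem (Finset.mem_biUnion.2
      ⟨a, Finset.mem_univ a, Finset.mem_biUnion.2 ⟨b, Finset.mem_univ b, hx⟩⟩)
  set F : Option S → H → H → K := fun i g h => ∑ a, ∑ b, (u a).coeff g * P a b i * (v b).coeff h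
    with hF
  suffices hall : ∀ i g h, F i g h = 0 by
    rw [← hall i g h, hF]
    simp [dotProduct, Matrix.mulVec, coef, Finset.mul_sum, mul_assoc]
  have e1 : ∀ g h, ∑ i ∈ I, F i (g * (pt f i)⁻¹) h = 0 := fun g h => by
    have : ∀ b, ∑ a, ∑ i ∈ I, (u a).coeff (g * (pt f i)⁻¹) * P a b i = 0 := fun b => by
      have h1 := congrArg (fun x : Series K H => x.coeff g) (congrFun hu b)
      simpa [Matrix.vecMul, dotProduct, mat, coeff_sum, coeff_zero, coeff_mul_ev f _ _ (hsub _ b)]
        using h1
    calc ∑ i ∈ I, F i (g * (pt f i)⁻¹) h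
        = ∑ b, (∑ a, ∑ i ∈ I, (u a).coeff (g * (pt f i)⁻¹) * P a b i) * (v b).coeff h := by
          simp only [hF, Finset.sum_mul]
          rw [Finset.sum_comm]
          rw [Finset.sum_comm (γ := k)]
          exact Finset.sum_congr rfl fun a _ => Finset.sum_comm
      _ = 0 := by simp [this]
  have e2 : ∀ g h, ∑ i ∈ I, F i g ((pt f i)⁻¹ * h) = 0 := fun g h => by
    have : ∀ a, ∑ b, ∑ i ∈ I, P a b i * (v b).coeff ((pt f i)⁻¹ * h) = 0 := fun a => by
      have h1 := congrArg (fun x : Series K H => x.coeff h) (congrFun hv a)
      simpa [Matrix.mulVec, dotProduct, mat, coeff_sum, coeff_zero, coeff_ev_mul f _ _ (hsub a _)]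
        using h1
    calc ∑ i ∈ I, F i g ((pt f i)⁻¹ * h)
        = ∑ a, (u a).coeff g * ∑ b, ∑ i ∈ I, P a b i * (v b).coeff ((pt f i)⁻¹ * h) := by
          simp only [hF, Finset.mul_sum, mul_assoc]
          rw [Finset.sum_comm]
          exact Finset.sum_congr rfl fun a _ => Finset.sum_comm
      _ = 0 := by simp [this]
  set T : Finset S := Finset.eraseNone I with hT
  have hsplit : ∀ φ : Option S → K, ∑ i ∈ I, φ i = φ none + ∑ s ∈ T, φ (some s) := fun φ => by
    have : I = Finset.insertNone T := by
      rw [hT, Finset.insertNone_eraseNone, Finset.insert_eq_of_mem]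
      exact Finset.mem_insert_self _ _
    rw [this, Finset.sum_insertNone]
  have hout : ∀ s, s ∉ T → ∀ g h, F (some s) g h = 0 := fun s hs g h => by
    have hP : ∀ a b, P a b (some s) = 0 := fun a b => by
      by_contra hne
      exact hs (Finset.mem_eraseNone.2 (hsub a b (Finsupp.mem_support_iff.2 hne)))
    simp [hF, hP]
  have key : ∀ s g h, F (some s) g h = 0 := by
    intro s g h
    by_cases hs : s ∈ T
    swap
    · exact hout s hs g h
    set k₀ := g * f (FreeGroup.of s) * h with hk₀
    let φ : S → H → K := fun s c => F (some s) c ((f (FreeGroup.of s))⁻¹ * c⁻¹ * k₀)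
    have hfin : ∀ s ∈ T, (Function.support (φ s)).Finite := fun s _ => by
      refine ((Set.finite_univ (α := m × k)).biUnion fun ab _ => finite_pairs (u ab.1) (v ab.2)
        (f (FreeGroup.of s))⁻¹ k₀).subset fun c hc => ?_
      obtain ⟨a, -, ha⟩ := Finset.exists_ne_zero_of_sum_ne_zero hc
      obtain ⟨b, -, hb⟩ := Finset.exists_ne_zero_of_sum_ne_zero ha
      exact Set.mem_biUnion (Set.mem_univ (a, b))
        ⟨left_ne_zero_of_mul (left_ne_zero_of_mul hb), right_ne_zero_of_mul hb⟩
    have heq : ∀ c, ∑ s ∈ T, φ s (c * (f (FreeGroup.of s))⁻¹) = ∑ s ∈ T, φ s c := fun c => by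
      have h1 := e1 c (c⁻¹ * k₀)
      have h2 := e2 c (c⁻¹ * k₀)
      rw [hsplit] at h1 h2
      simp only [pt, Option.elim_none, Option.elim_some, inv_one, mul_one, one_mul] at h1 h2
      have h3 := add_left_cancel (h1.trans h2.symm)
      simp only [φ, _root_.mul_inv_rev]
      refine Eq.trans (Eq.trans ?_ h3) ?_
      · exact Finset.sum_congr rfl fun s _ => by congr 1; group
      · exact Finset.sum_congr rfl fun s _ => by rw [mul_assoc]
    have := flow_eq_zero f hf T φ hfin heq hs g
    simp only [φ, hk₀] at this
    rwa [show (f (FreeGroup.of s))⁻¹ * g⁻¹ * (g * f (FreeGroup.of s) * h) = h by group] at this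
  intro i g h
  rcases i with _ | s
  · have h1 := e1 g h
    rw [hsplit] at h1
    simpa [pt, key] using h1
  · exact key s g h

omit [Fintype l] in
/-- The kernel of a Hall pencil is zero. -/
theorem eq_zero_of_hall (f : FreeGroup S →* H) (hf : Function.Injective f) :
    ∀ (N : ℕ) (m k : Type) [Fintype m] [Fintype k] (P : Pen K S m k),
      Fintype.card m + Fintype.card k ≤ N → Hall P → ∀ v, mat f P *ᵥ v = 0 → v = 0 := by
  intro N
  induction N using Nat.strong_induction_on with
  | _ N ih =>
    intro m k _ _ P hN hP v hv
    classical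
    by_contra hv0
    have hkm : Fintype.card k ≤ Fintype.card m := by
      have := (hP ⊤).trans (Submodule.finrank_le _)
      rwa [finrank_top, finrank_fintype_fun_eq_card, finrank_fintype_fun_eq_card] at this
    obtain ⟨u, hu0, hu⟩ := exists_vecMul_eq_zero (mat f P) hkm hv hv0
    set V : Submodule K (k → K) := Submodule.span K (Set.range fun h b => (v b).coeff h) with hV
    have horth : ∀ (i : Option S) (g : H), ∀ x ∈ V,
        (fun a => (u a).coeff g) ⬝ᵥ (coef P i *ᵥ x) = 0 := by
      intro i g x hx
      induction hx using Submodule.span_induction with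
      | mem x hx => obtain ⟨h, rfl⟩ := hx; exact orth f hf P hu hv i g h
      | zero => simp
      | add x y _ _ hx hy => rw [Matrix.mulVec_add, dotProduct_add, hx, hy, add_zero]
      | smul c x _ hx => rw [Matrix.mulVec_smul, dotProduct_smul, hx, smul_zero]
    by_cases hVtop : V = ⊤
    · set W := imgs P ⊤ with hW
      have hWne : finrank K W < Fintype.card m := by
        rw [← finrank_fintype_fun_eq_card (R := K)]
        refine Submodule.finrank_lt fun hWtop => hu0 ?_
        funext a
        refine ext' fun g => ?_
        have hall : ∀ x ∈ W, (fun a => (u a).coeff g) ⬝ᵥ x = 0 := by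
          intro x hx
          refine Submodule.iSup_induction _
            (motive := fun x => (fun a => (u a).coeff g) ⬝ᵥ x = 0) hx ?_ (by simp) ?_
          · rintro i _ ⟨y, -, rfl⟩
            exact horth i g y (hVtop ▸ Submodule.mem_top)
          · intro x y hx hy
            rw [dotProduct_add, hx, hy, add_zero]
        have := hall (Pi.single a 1) (hWtop ▸ Submodule.mem_top)
        simpa [coeff_zero] using this
      obtain ⟨J, L, hLJ, hrange, hJL⟩ := exists_cols W
      refine hv0 (ih (Fintype.card (Fin (finrank K W)) + Fintype.card k) (by simp; omega) _ _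
        (mulL L P) le_rfl (fun V' => ?_) v ?_)
      · refine (hP V').trans (le_of_eq ?_)
        have hle : imgs P V' ≤ W := iSup_mono fun i => Submodule.map_mono le_top
        have hinj : Set.InjOn L.mulVecLin (W : Set (m → K)) := fun x hx y hy hxy => by
          rw [← hJL x hx, ← hJL y hy]
          exact congrArg (J *ᵥ ·) hxy
        have e : imgs (mulL L P) V' = (imgs P V').map L.mulVecLin := by
          rw [imgs, imgs, Submodule.map_iSup]
          refine iSup_congr fun i => ?_
          rw [coef_mulL, Matrix.mulVecLin_mul, Submodule.map_comp]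
        rw [e]
        have hd : Function.Injective (L.mulVecLin.domRestrict (imgs P V')) := fun x y hxy =>
          Subtype.ext (hinj (hle x.2) (hle y.2) hxy)
        rw [← LinearMap.range_domRestrict, LinearMap.finrank_range_of_inj hd]
      · rw [mat_mulL, ← Matrix.mulVec_mulVec, hv, Matrix.mulVec_zero]
    · obtain ⟨B, L, hLB, hrange, hBL⟩ := exists_cols V
      have hd : finrank K V < Fintype.card k := by
        rw [← finrank_fintype_fun_eq_card (R := K)]
        exact Submodule.finrank_lt hVtop
      set w := cmat L *ᵥ v with hw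
      have hvw : cmat B *ᵥ w = v := by
        funext b
        refine ext' fun g => ?_
        rw [hw, cmat_mulVec_eq, show (fun c => ((cmat L *ᵥ v) c).coeff g) =
          L *ᵥ fun b => (v b).coeff g from funext fun c => cmat_mulVec_eq L v c g,
          hBL _ (Submodule.subset_span ⟨g, rfl⟩)]
      have hw0 : w = 0 := ih (Fintype.card m + Fintype.card (Fin (finrank K V))) (by simp; omega) _ _
        (mulR P B) le_rfl (fun V' => ?_) w (by rw [mat_mulR, ← Matrix.mulVec_mulVec, hvw, hv])
      · exact hv0 (by rw [← hvw, hw0, Matrix.mulVec_zero])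
      have hBinj : Function.Injective B.mulVecLin := fun x y hxy => by
        have := congrArg (L *ᵥ ·) hxy
        simpa [Matrix.mulVec_mulVec, hLB] using this
      rw [(Submodule.equivMapOfInjective _ hBinj V').finrank_eq]
      refine (hP _).trans (le_of_eq ?_)
      have e : imgs P (V'.map B.mulVecLin) = imgs (mulR P B) V' := by
        rw [imgs, imgs]
        refine iSup_congr fun i => ?_
        rw [coef_mulR, Matrix.mulVecLin_mul, Submodule.map_comp]
      rw [e]

/-- Without the Hall condition there is a kernel, whatever the subgroup. -/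
theorem exists_kernel_of_not_hall (f : FreeGroup S →* H) (P : Pen K S m k) (hP : ¬ Hall P) :
    ∃ v, v ≠ 0 ∧ mat f P *ᵥ v = 0 := by
  classical
  simp only [Hall, not_forall, not_le] at hP
  obtain ⟨V, hV⟩ := hP
  obtain ⟨B, Lb, hLB, hrangeB, -⟩ := exists_cols V
  obtain ⟨J, L, hLJ, -, hJL⟩ := exists_cols (imgs P V)
  obtain ⟨z, hz0, hz⟩ := exists_mulVec_eq_zero (mat f (mulL L (mulR P B))) (by simpa using hV)
  refine ⟨cmat B *ᵥ z, fun h => hz0 ?_, ?_⟩
  · have h1 := congrArg (cmat (H := H) Lb *ᵥ ·) h
    simp only [Matrix.mulVec_mulVec, Matrix.mulVec_zero] at h1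
    rwa [show cmat (H := H) Lb * cmat (H := H) B = 1 from by
      rw [cmat, cmat, ← Matrix.map_mul, hLB, Matrix.map_one _ (map_zero _) (map_one _)],
      Matrix.one_mulVec] at h1
  · rw [Matrix.mulVec_mulVec, ← mat_mulR]
    have e : mulR P B = mulL J (mulL L (mulR P B)) := by
      ext a b i
      have hc : coef (mulL J (mulL L (mulR P B))) i = coef (mulR P B) i := by
        refine Matrix.ext_of_mulVec_single fun b => ?_
        rw [coef_mulL, coef_mulL, ← Matrix.mulVec_mulVec, ← Matrix.mulVec_mulVec]
        refine hJL _ (le_iSup (fun i => V.map (coef P i).mulVecLin) i ?_)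
        rw [coef_mulR, ← Matrix.mulVec_mulVec]
        exact Submodule.mem_map_of_mem (hrangeB.le (LinearMap.mem_range_self B.mulVecLin _))
      exact (congrFun (congrFun hc a) b).symm
    rw [e, mat_mulL, ← Matrix.mulVec_mulVec, hz, Matrix.mulVec_zero]

/-- The Hall condition is injectivity. -/
theorem hall_iff (f : FreeGroup S →* H) (hf : Function.Injective f) (P : Pen K S m k) :
    Hall P ↔ ∀ v, mat f P *ᵥ v = 0 → v = 0 := by
  refine ⟨fun h v => eq_zero_of_hall f hf _ m k P le_rfl h v, fun h => ?_⟩
  by_contra hcon
  obtain ⟨v, hv0, hv⟩ := exists_kernel_of_not_hall f P hcon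
  exact hv0 (h v hv)

end Vale.Agent.HNNAlg.Pencil
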